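import Vale.Agent.P251EJ.DefsS

/-!
# P251EJ, block S, row CELL: an equivariant cell structure on the powers of the sphere

A point `y` of `(Sⁿ)^M` lies in a cell whose dimension is the number of distinct coordinates of the
finite components of `y`; the cell records which coordinate is which.
-/

open Set Topology OnePoint

noncomputable section

namespace Vale.Agent.P251EJ69

open Vale.Agent.P251EJ

variable {n M : ℕ}

open Classical in
/-- the values of `g` on the coordinates of the finite components of `y` -/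
def crd (g : ℝ → ℝ) (y : Fin M → Sp n) : Finset ℝ :=
  (Finset.univ : Finset (Fin M × Fin n)).biUnion fun p =>
    OnePoint.elim (y p.1) ∅ fun x => {g (x p.2)}

theorem mem_crd (g : ℝ → ℝ) (y : Fin M → Sp n) (s : ℝ) :
    s ∈ crd g y ↔ ∃ (i : Fin M) (x : Fin n → ℝ) (j : Fin n), y i = (x : Sp n) ∧ s = g (x j) := by
  classical
  unfold crd
  rw [Finset.mem_biUnion]
  constructor
  · rintro ⟨⟨i, j⟩, -, hs⟩
    induction hy : y i using OnePoint.rec with
    | infty =>
      simp only [hy, OnePoint.elim_infty] at hs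
      exact absurd hs (Finset.notMem_empty s)
    | coe x =>
      simp only [hy, OnePoint.elim_some] at hs
      exact ⟨i, x, j, hy, Finset.mem_singleton.1 hs⟩
  · rintro ⟨i, x, j, hy, hs⟩
    refine ⟨(i, j), Finset.mem_univ _, ?_⟩
    simp only [hy, OnePoint.elim_some]
    exact Finset.mem_singleton.2 hs

theorem card_crd (g : ℝ → ℝ) (y : Fin M → Sp n) : (crd g y).card ≤ M * n := by
  classical
  unfold crd
  refine (Finset.card_biUnion_le_card_mul _ _ 1 ?_).trans (by simp)
  rintro ⟨i, j⟩ -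
  induction hy : y i using OnePoint.rec with
  | infty => simp
  | coe x => simp

theorem crd_perm (g : ℝ → ℝ) (y : Fin M → Sp n) (σ : Equiv.Perm (Fin M)) :
    crd g (y ∘ σ) = crd g y := by
  ext s
  rw [mem_crd, mem_crd]
  constructor
  · rintro ⟨i, x, j, hy, hs⟩
    exact ⟨σ i, x, j, hy, hs⟩
  · rintro ⟨i, x, j, hy, hs⟩
    exact ⟨σ.symm i, x, j, by simpa using hy, hs⟩

/-- the cells of dimension `d` -/
def Pat (n M d : ℕ) : Type :=
  {ρ : Fin M → Option (Fin n → Fin d) // ∀ k : Fin d, ∃ i r j, ρ i = Option.some r ∧ r j = k}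

/-- the characteristic maps -/
def chr (χ : (Fin n → ℝ) → Sp n) {d : ℕ} (ρ : Fin M → Option (Fin n → Fin d)) (t : Fin d → ℝ) :
    Fin M → Sp n := fun i => (ρ i).elim ∞ fun r => χ (t ∘ r)

section main

variable {h g : ℝ → ℝ} {χ : (Fin n → ℝ) → Sp n} (hg : ∀ t ∈ Ioo (0 : ℝ) 1, g (h t) = t)
  (hin : ∀ t, (∀ i, t i ∈ Ioo (0 : ℝ) 1) → χ t = ((fun i => h (t i) : Fin n → ℝ) : Sp n))
  (hout : ∀ t, ¬ (∀ i, t i ∈ Ioo (0 : ℝ) 1) → χ t = ∞)

include hg hin hout in
theorem crd_sub {d : ℕ} (ρ : Fin M → Option (Fin n → Fin d)) (t : Fin d → ℝ) (s : ℝ)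
    (hs : s ∈ crd g (chr χ ρ t)) : ∃ k, t k ∈ Ioo (0 : ℝ) 1 ∧ t k = s := by
  obtain ⟨i, x, j, hy, rfl⟩ := (mem_crd _ _ _).1 hs
  unfold chr at hy
  cases hr : ρ i with
  | none =>
    rw [hr] at hy
    exact absurd hy (OnePoint.infty_ne_coe x)
  | some r =>
    rw [hr] at hy
    change χ (t ∘ r) = _ at hy
    by_cases ht : ∀ i, (t ∘ r) i ∈ Ioo (0 : ℝ) 1
    · rw [hin _ ht] at hy
      have hx := OnePoint.coe_injective hy
      refine ⟨r j, ht j, ?_⟩
      rw [← hx]
      exact (hg _ (ht j)).symm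
    · rw [hout _ ht] at hy
      exact absurd hy (OnePoint.infty_ne_coe x)

include hg hin hout in
theorem crd_eq {d : ℕ} (ρ : Pat n M d) (t : Fin d → ℝ) (ht : ∀ i, t i ∈ Ioo (0 : ℝ) 1) :
    (crd g (chr χ ρ.1 t) : Set ℝ) = range t := by
  ext s
  constructor
  · intro hs
    obtain ⟨k, -, hk⟩ := crd_sub hg hin hout ρ.1 t s hs
    exact ⟨k, hk⟩
  · rintro ⟨k, rfl⟩
    obtain ⟨i, r, j, hr, rfl⟩ := ρ.2 k
    refine (mem_crd _ _ _).2 ⟨i, fun j => h (t (r j)), j, ?_, (hg _ (ht _)).symm⟩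
    unfold chr
    rw [hr]
    exact hin (t ∘ r) fun j => ht _

include hg hin hout in
theorem card_lt {d : ℕ} (ρ : Fin M → Option (Fin n → Fin d)) (t : Fin d → ℝ) (hm : Monotone t)
    (ht : ¬ (StrictMono t ∧ ∀ i, t i ∈ Ioo (0 : ℝ) 1)) : (crd g (chr χ ρ t)).card < d := by
  classical
  have hsub : crd g (chr χ ρ t) ⊆ (Finset.univ.filter fun k => t k ∈ Ioo (0 : ℝ) 1).image t := by
    intro s hs
    obtain ⟨k, hk, rfl⟩ := crd_sub hg hin hout ρ t s hs
    exact Finset.mem_image_of_mem _ (Finset.mem_filter.2 ⟨Finset.mem_univ _, hk⟩)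
  refine lt_of_le_of_lt (Finset.card_le_card hsub) ?_
  by_cases hi : ∀ i, t i ∈ Ioo (0 : ℝ) 1
  · have hni : ¬ Function.Injective t := fun hj => ht ⟨hm.strictMono_of_injective hj, hi⟩
    have h1 : ((Finset.univ.filter fun k => t k ∈ Ioo (0 : ℝ) 1).image t).card ≤
        (Finset.univ.image t).card :=
      Finset.card_le_card (Finset.image_subset_image (Finset.filter_subset _ _))
    have h2 : (Finset.univ.image t).card ≤ (Finset.univ : Finset (Fin d)).card :=
      Finset.card_image_le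
    have h3 : (Finset.univ.image t).card ≠ (Finset.univ : Finset (Fin d)).card := by
      intro he
      refine hni fun a b hab => ?_
      exact Finset.card_image_iff.1 he (Finset.mem_coe.2 (Finset.mem_univ a))
        (Finset.mem_coe.2 (Finset.mem_univ b)) hab
    rw [Finset.card_univ, Fintype.card_fin] at h2 h3
    omega
  · obtain ⟨k, hk⟩ := not_forall.1 hi
    have h1 : (Finset.univ.filter fun k => t k ∈ Ioo (0 : ℝ) 1).card <
        (Finset.univ : Finset (Fin d)).card :=
      Finset.card_lt_card (Finset.filter_ssubset.2 ⟨k, Finset.mem_univ _, hk⟩)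
    rw [Finset.card_univ, Fintype.card_fin] at h1
    exact lt_of_le_of_lt Finset.card_image_le h1

include hg hin hout in
theorem chr_inj {d : ℕ} (ρ ρ' : Pat n M d) (s t : Fin d → ℝ) (hs : StrictMono s)
    (hs' : ∀ i, s i ∈ Ioo (0 : ℝ) 1) (ht : StrictMono t) (ht' : ∀ i, t i ∈ Ioo (0 : ℝ) 1)
    (e : chr χ ρ.1 s = chr χ ρ'.1 t) : ρ = ρ' ∧ s = t := by
  have hst : s = t := by
    rw [← hs.range_inj ht, ← crd_eq hg hin hout ρ s hs', ← crd_eq hg hin hout ρ' t ht', e]
  subst hst
  refine ⟨Subtype.ext (funext fun i => ?_), rfl⟩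
  have ei := congrFun e i
  unfold chr at ei
  cases hr : ρ.1 i with
  | none =>
    cases hr' : ρ'.1 i with
    | none => rfl
    | some r' =>
      rw [hr, hr'] at ei
      change ∞ = χ (s ∘ r') at ei
      rw [hin (s ∘ r') fun j => hs' _] at ei
      exact absurd ei (OnePoint.infty_ne_coe _)
  | some r =>
    cases hr' : ρ'.1 i with
    | none =>
      rw [hr, hr'] at ei
      change χ (s ∘ r) = ∞ at ei
      rw [hin (s ∘ r) fun j => hs' _] at ei
      exact absurd ei.symm (OnePoint.infty_ne_coe _)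
    | some r' =>
      rw [hr, hr'] at ei
      change χ (s ∘ r) = χ (s ∘ r') at ei
      rw [hin (s ∘ r) fun j => hs' _, hin (s ∘ r') fun j => hs' _] at ei
      have hx := OnePoint.coe_injective ei
      congr 1
      funext j
      have hj := congrArg g (congrFun hx j)
      change g (h (s (r j))) = g (h (s (r' j))) at hj
      rw [hg _ (hs' _), hg _ (hs' _)] at hj
      exact hs.injective hj

include hin in
theorem exists_chr (hg' : ∀ x, g x ∈ Ioo (0 : ℝ) 1 ∧ h (g x) = x) {d : ℕ} (y : Fin M → Sp n)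
    (hy : (crd g y).card = d) : ∃ (ρ : Pat n M d) (s : Fin d → ℝ),
      (StrictMono s ∧ ∀ i, s i ∈ Ioo (0 : ℝ) 1) ∧ chr χ ρ.1 s = y := by
  let s : Fin d → ℝ := (crd g y).orderEmbOfFin hy
  have hs : StrictMono s := ((crd g y).orderEmbOfFin hy).strictMono
  have hr : range s = (crd g y : Set ℝ) := Finset.range_orderEmbOfFin _ hy
  have hmem : ∀ k, ∃ (i : Fin M) (x : Fin n → ℝ) (j : Fin n), y i = (x : Sp n) ∧ s k = g (x j) :=
    fun k => (mem_crd g y (s k)).1 (Finset.mem_coe.1 (hr ▸ mem_range_self k))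
  have hs' : ∀ k, s k ∈ Ioo (0 : ℝ) 1 := fun k => by
    obtain ⟨i, x, j, -, e⟩ := hmem k
    rw [e]
    exact (hg' _).1
  have key : ∀ i, ∃ o : Option (Fin n → Fin d), (o.elim ∞ fun r => χ (s ∘ r)) = y i ∧
      ∀ x : Fin n → ℝ, y i = (x : Sp n) → ∃ r, o = Option.some r ∧ ∀ j, s (r j) = g (x j) := by
    intro i
    induction hi : y i using OnePoint.rec with
    | infty => exact ⟨none, rfl, fun x hx => absurd hx (OnePoint.infty_ne_coe x)⟩
    | coe x =>
      have hx : ∀ j, ∃ k, s k = g (x j) := fun j => by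
        have : g (x j) ∈ range s := by
          rw [hr]
          exact Finset.mem_coe.2 ((mem_crd g y _).2 ⟨i, x, j, hi, rfl⟩)
        exact this
      choose r hrj using hx
      refine ⟨Option.some r, ?_, fun x' hx' => ⟨r, rfl, ?_⟩⟩
      · change χ (s ∘ r) = _
        rw [hin (s ∘ r) fun j => hs' _]
        congr 1
        funext j
        change h (s (r j)) = x j
        rw [hrj]
        exact (hg' _).2
      · rw [← OnePoint.coe_injective hx']
        exact hrj
  choose ρ h1 h2 using key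
  refine ⟨⟨ρ, fun k => ?_⟩, s, ⟨hs, hs'⟩, funext h1⟩
  obtain ⟨i, x, j, hi, e⟩ := hmem k
  obtain ⟨r, hρ, hj⟩ := h2 i x hi
  exact ⟨i, r, j, hρ, hs.injective ((hj j).trans e.symm)⟩

end main

theorem chr_cont {χ : (Fin n → ℝ) → Sp n} (hc : ContinuousOn χ {t | ∀ i, t i ∈ Icc (0 : ℝ) 1})
    {d : ℕ} (ρ : Fin M → Option (Fin n → Fin d)) : ContinuousOn (chr χ ρ) (ordS d) := by
  refine continuousOn_pi.2 fun i => ?_
  unfold chr
  cases ρ i with
  | none => exact continuousOn_const
  | some r =>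
    change ContinuousOn (fun t : Fin d → ℝ => χ (t ∘ r)) _
    refine hc.comp (f := fun t : Fin d → ℝ => t ∘ r) ?_ fun t ht j => ht.2 _
    exact (continuous_pi fun j => continuous_apply (r j)).continuousOn

/-- row CELL -/
theorem cellS : CellS := by
  classical
  intro hB hχ n M Z _ q hq hq'
  obtain ⟨h, χ, hb, hc, hin, hout⟩ := hχ n
  have hex : ∀ x : ℝ, ∃ t, t ∈ Ioo (0 : ℝ) 1 ∧ h t = x := fun x => hb.surjOn (mem_univ x)
  choose g hg' using hex
  have hg : ∀ t ∈ Ioo (0 : ℝ) 1, g (h t) = t := fun t ht => hb.injOn (hg' _).1 ht (hg' _).2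
  refine ⟨{
    N := M * n + 1
    P := fun d => Pat n M d
    fin := fun d => by unfold Pat; infer_instance
    sk := fun d => {y | (crd g y).card < d}
    sk_zero := eq_empty_of_forall_notMem fun y hy => Nat.not_lt_zero _ hy
    sk_top := eq_univ_of_forall fun y => Nat.lt_succ_of_le (card_crd g y)
    mono := fun d y hy => Nat.lt_succ_of_lt hy
    c := fun d ρ => chr χ ρ.1
    cont := fun d ρ => chr_cont hc ρ.1
    bd := fun d ρ t ht => ?_
    inj := fun d ρ ρ' s hs t ht e => ?_
    cov := fun d => ?_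
    act := fun σ => ⟨fun y => y ∘ σ, continuous_pi fun i => continuous_apply (σ i)⟩
    act_mul := fun σ τ y => rfl
    act_sk := fun d σ y => ?_
    pact := fun d σ ρ => ⟨ρ.1 ∘ σ, fun k => ?_⟩
    c_act := fun d σ ρ s => rfl
    q := q
    q_surj := hq
    q_eq := hq' }, rfl, fun σ y => rfl⟩
  · obtain ⟨-, hK, -, hI⟩ := hB d
    rw [hK.isClosed.frontier_eq, hI] at ht
    exact card_lt hg hin hout ρ.1 t ht.1.1 ht.2
  · rw [(hB d).2.2.2] at hs ht
    exact chr_inj hg hin hout ρ ρ' s t hs.1 hs.2 ht.1 ht.2 e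
  · rw [(hB d).2.2.2]
    ext y
    constructor
    · rintro ⟨h1, h2⟩
      have h1' : (crd g y).card < d + 1 := h1
      have h2' : ¬ (crd g y).card < d := h2
      obtain ⟨ρ, s, hs, e⟩ := exists_chr hin hg' (d := d) y (by omega)
      exact mem_iUnion.2 ⟨ρ, s, hs, e⟩
    · intro hy
      obtain ⟨ρ, s, hs, rfl⟩ := mem_iUnion.1 hy
      have hcard : (crd g (chr χ ρ.1 s)).card = d := by
        have e : crd g (chr χ ρ.1 s) = Finset.univ.image s := by
          apply Finset.coe_injective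
          rw [crd_eq hg hin hout ρ s hs.2, Finset.coe_image, Finset.coe_univ, image_univ]
        rw [e, Finset.card_image_of_injective _ hs.1.injective, Finset.card_univ, Fintype.card_fin]
      refine ⟨?_, ?_⟩
      · change (crd g (chr χ ρ.1 s)).card < d + 1
        omega
      · change ¬ (crd g (chr χ ρ.1 s)).card < d
        omega
  · change (crd g (y ∘ σ)).card < d ↔ (crd g y).card < d
    rw [crd_perm]
  · obtain ⟨i, r, j, hr, e⟩ := ρ.2 k
    exact ⟨σ.symm i, r, j, by simpa using hr, e⟩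

end Vale.Agent.P251EJ69
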